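import Vale.Agent.P257.V4.O.Cells

/-!
# P257, part O: lifting and vanishing in the tower of a monoid (O1, O1')
-/

open CategoryTheory MonoidalCategory Limits Pretriangulated MonObj

universe v u

namespace Vale.Agent.P257.V4.O

open Vale.Agent.P251.T Vale.Agent.P251.S

variable {T : Type u} [Category.{v} T] [Preadditive T] [HasZeroObject T] [HasShift T ℤ]
  [∀ n : ℤ, (shiftFunctor T n).Additive] [Pretriangulated T] [MonoidalCategory T]
  [SymmetricCategory T] [TensorTriangulated T] {B : T} [MonObj B] (U : UnitCof B)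

/-- The exact couple of the tower of `X`. -/
noncomputable abbrev cpl (X : T) : Couple := (U.tow X).couple (𝟙_ T)

/-- The `E_2`-term of `X` vanishes in the stem `n` and all positive filtrations. -/
def Good (X : T) (n : ℤ) : Prop := ∀ s, (cpl U X).Van s n

/-- Connectivity of the tower. -/
def Conn (X : T) : Prop := ∀ n : ℤ, ∃ r : ℕ, ∀ s, r ≤ s → ∀ y : (cpl U X).D s n, y = 0

variable {U} {X : T}

/-- (O1) -/
theorem i_eq_zero_of (hc : Conn U X) {s : ℕ} {m : ℤ} (hv : ∀ s' ≥ s, (cpl U X).Van s' m)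
    (y : (cpl U X).D (s + 1) m) : (cpl U X).i s m y = 0 := by
  obtain ⟨r, hr⟩ := hc m
  obtain ⟨y', hy'⟩ := (cpl U X).exists_iN_eq hv y r
  rw [← hy', hr (s + r) (Nat.le_add_left _ _) y', map_zero]

/-- (O1') -/
theorem exists_lift_of (hc : Conn U X) {s : ℕ} {n m : ℤ} (h : n = m + 1)
    (hv : ∀ s' ≥ s + 1, (cpl U X).Van s' m) (b : (cpl U X).E s n)
    (hb : (cpl U X).IsCocycle b) : ∃ x : (cpl U X).D s n, (cpl U X).j s n x = b := by
  obtain ⟨r, hr⟩ := hc m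
  exact (cpl U X).exists_lift h b hb hv r (hr _ (Nat.le_add_left _ _))

/-- In a good stem a map which is zero in `B`-homology is zero. -/
theorem Good.lf (hc : Conn U X) {n : ℤ} (hg : Good U X n) : Lf B ((𝟙_ T)⟦n⟧) X := by
  intro f hf
  have e : n = n + ((0 : ℕ) : ℤ) := by simp
  let f' : (cpl U X).D 0 n := cst (𝟙_ T) X e f
  have h0 : (cpl U X).j 0 n f' = 0 := by
    change cst (𝟙_ T) X e f ≫ unitMap B X = 0
    rw [← cst_comp, hf, map_zero]
  obtain ⟨y, hy⟩ := (cpl U X).exact_j 0 n f' h0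
  have h1 : f' = 0 := by rw [← hy]; exact i_eq_zero_of hc (fun s _ => hg s) y
  exact (AddEquiv.map_eq_zero_iff (cst (𝟙_ T) X e)).1 h1

/-- Lifting a class of filtration zero. -/
theorem exists_lift_zero (hc : Conn U X) {n m : ℤ} (h : n = m + 1)
    (hg : ∀ s, 1 ≤ s → (cpl U X).Van s m) (z : (𝟙_ T)⟦n⟧ ⟶ B ⊗ X)
    (hz : z ≫ (U.ρ ▷ X) ≫ unitMap B (U.J ⊗ X) = 0) :
    ∃ x : (𝟙_ T)⟦n⟧ ⟶ X, x ≫ unitMap B X = z := by
  have e : n = n + ((0 : ℕ) : ℤ) := by simp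
  let z' : (cpl U X).E 0 n := cst (𝟙_ T) (B ⊗ X) e z
  have hz' : (cpl U X).IsCocycle z' := by
    intro l hl
    have h1 : n + ((0 : ℕ) : ℤ) = l + ((0 + 1 : ℕ) : ℤ) := by rw [hl]; simp
    change cst (𝟙_ T) (U.J ⊗ X) h1 (cst (𝟙_ T) (B ⊗ X) e z ≫ (U.ρ ▷ X)) ≫
      unitMap B (U.J ⊗ X) = 0
    rw [← cst_comp, ← cst_comp, ← cst_comp, Category.assoc, hz, map_zero, map_zero]
  obtain ⟨x, hx⟩ : ∃ x : (𝟙_ T)⟦n + ((0 : ℕ) : ℤ)⟧ ⟶ X,
      x ≫ unitMap B X = cst (𝟙_ T) (B ⊗ X) e z :=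
    exists_lift_of hc h (fun s hs => hg s (by omega)) z' hz'
  obtain ⟨x, rfl⟩ := (cst (𝟙_ T) X e).surjective x
  refine ⟨x, (cst (𝟙_ T) (B ⊗ X) e).injective ?_⟩
  rw [cst_comp, hx]

end Vale.Agent.P257.V4.O
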