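import Vale.Agent.P251.S.TensorShift
import Vale.Agent.P251.S.TowerR

/-!
# P257, part O: finite cell objects

* `Zr A M` : every map `A ⟶ M` is zero; `Lf B A X` : a map `f : A ⟶ X` is zero as soon as its
  Hurewicz image `f ≫ unitMap B X` is zero;
* `Cell C A` : `A` is built from finitely many spheres `𝟙⟦n⟧`, `n ∈ C`, by extensions; closure under
  isomorphisms, shifts, tensor products;
* `Cell.zr`, `Cell.zr_tensor`, `Cell.lf` (section (O2)).
-/

open CategoryTheory MonoidalCategory Limits Pretriangulated MonObj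

universe v u

namespace Vale.Agent.P257.V4.O

open Vale.Agent.P251.T Vale.Agent.P251.S

variable {T : Type u} [Category.{v} T] [Preadditive T] [HasZeroObject T] [HasShift T ℤ]
  [∀ n : ℤ, (shiftFunctor T n).Additive] [Pretriangulated T]
  [MonoidalCategory T]

/-- Every map `A ⟶ M` is zero. -/
def Zr (A M : T) : Prop := ∀ f : A ⟶ M, f = 0

/-- A map `A ⟶ X` with zero Hurewicz image is zero. -/
def Lf (B : T) [MonObj B] (A X : T) : Prop := ∀ f : A ⟶ X, f ≫ unitMap B X = 0 → f = 0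

omit [HasZeroObject T] [HasShift T ℤ] [∀ n : ℤ, (shiftFunctor T n).Additive] [Pretriangulated T]
  [MonoidalCategory T] in
lemma Zr.iso {A A' M : T} (e : A ≅ A') (h : Zr A M) : Zr A' M := fun f => by
  have h1 := h (e.hom ≫ f)
  rw [← Category.id_comp f, ← e.inv_hom_id, Category.assoc, h1, comp_zero]

omit [HasZeroObject T] [HasShift T ℤ] [∀ n : ℤ, (shiftFunctor T n).Additive] [Pretriangulated T]
  [MonoidalCategory T] in
lemma Zr.iso_right {A M M' : T} (e : M ≅ M') (h : Zr A M) : Zr A M' := fun f => by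
  have h1 := h (f ≫ e.inv)
  rw [← Category.comp_id f, ← e.inv_hom_id, ← Category.assoc, h1, zero_comp]

omit [HasZeroObject T] [MonoidalCategory T] [Pretriangulated T] in
/-- The vanishing is invariant under shifts. -/
lemma Zr.shift {A M : T} (h : Zr A M) (d : ℤ) : Zr (A⟦d⟧) (M⟦d⟧) := fun f => by
  obtain ⟨g, rfl⟩ := (shiftFunctor T d).map_surjective f
  rw [h g, Functor.map_zero]

omit [HasZeroObject T] [HasShift T ℤ] [∀ n : ℤ, (shiftFunctor T n).Additive]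
  [Pretriangulated T] in
lemma Zr.lf {B : T} [MonObj B] {A X : T} (h : Zr A X) : Lf B A X := fun f _ => h f

omit [HasZeroObject T] [HasShift T ℤ] [∀ n : ℤ, (shiftFunctor T n).Additive]
  [Pretriangulated T] in
lemma Lf.iso {B : T} [MonObj B] {A A' X : T} (e : A ≅ A') (h : Lf B A X) : Lf B A' X :=
  fun f hf => by
    have h1 := h (e.hom ≫ f) (by rw [Category.assoc, hf, comp_zero])
    rw [← Category.id_comp f, ← e.inv_hom_id, Category.assoc, h1, comp_zero]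

section exact

omit [MonoidalCategory T]

lemma ex₂ {A₁ A A₂ M : T} {i : A₁ ⟶ A} {p : A ⟶ A₂} {d : A₂ ⟶ A₁⟦(1 : ℤ)⟧}
    (hd : Triangle.mk i p d ∈ distTriang T) (f : A ⟶ M) (h : i ≫ f = 0) :
    ∃ g : A₂ ⟶ M, f = p ≫ g :=
  Triangle.yoneda_exact₂ _ hd f h

lemma ex₃ {A₁ A A₂ M : T} {i : A₁ ⟶ A} {p : A ⟶ A₂} {d : A₂ ⟶ A₁⟦(1 : ℤ)⟧}
    (hd : Triangle.mk i p d ∈ distTriang T) (g : A₂ ⟶ M) (h : p ≫ g = 0) :
    ∃ k : A₁⟦(1 : ℤ)⟧ ⟶ M, g = d ≫ k :=
  Triangle.yoneda_exact₃ _ hd g h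

end exact

/-- `A` is built from finitely many spheres `𝟙⟦n⟧`, `n ∈ C`, by extensions. -/
inductive Cell : Set ℤ → T → Prop
  | sph {C : Set ℤ} {A : T} (n : ℤ) (hn : n ∈ C) (e : A ≅ (𝟙_ T)⟦n⟧) : Cell C A
  | ext {C : Set ℤ} {A₁ A A₂ : T} (i : A₁ ⟶ A) (p : A ⟶ A₂) (d : A₂ ⟶ A₁⟦(1 : ℤ)⟧)
      (h : Triangle.mk i p d ∈ distTriang T) (h₁ : Cell C A₁) (h₂ : Cell C A₂) : Cell C A

namespace Cell

variable {C D : Set ℤ} {A A' W M : T}

lemma mono (h : Cell C A) (hCD : C ⊆ D) : Cell D A := by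
  induction h with
  | sph n hn e => exact .sph n (hCD hn) e
  | ext i p d hd _ _ ih₁ ih₂ => exact .ext i p d hd ih₁ ih₂

lemma iso (h : Cell C A) (e : A ≅ A') : Cell C A' := by
  cases h with
  | sph n hn e' => exact .sph n hn (e.symm ≪≫ e')
  | ext i p d hd h₁ h₂ =>
    refine .ext (i ≫ e.hom) (e.inv ≫ p) d ?_ h₁ h₂
    refine isomorphic_distinguished _ hd _ (Triangle.isoMk _ _ (Iso.refl _) e.symm (Iso.refl _)
      ?_ ?_ ?_)
    · change (i ≫ e.hom) ≫ e.inv = 𝟙 _ ≫ i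
      simp
    · change (e.inv ≫ p) ≫ 𝟙 _ = e.inv ≫ p
      simp
    · change d ≫ (𝟙 _)⟦(1 : ℤ)⟧' = 𝟙 _ ≫ d
      simp

lemma shift (h : Cell C A) (d : ℤ) : Cell {n | n - d ∈ C} (A⟦d⟧) := by
  induction h with
  | sph n hn e =>
    refine .sph (n + d) (by simpa using hn)
      ((shiftFunctor T d).mapIso e ≪≫ ((shiftFunctorAdd T n d).app (𝟙_ T)).symm)
  | ext i p d' hd _ _ ih₁ ih₂ =>
    have h1 := Triangle.shift_distinguished _ hd d
    exact .ext _ _ _ h1 ih₁ ih₂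

lemma zr (h : Cell C A) (H : ∀ n ∈ C, Zr ((𝟙_ T)⟦n⟧) M) : Zr A M := by
  induction h with
  | sph n hn e => exact (H n hn).iso e.symm
  | ext i p d hd _ _ ih₁ ih₂ =>
    intro f
    obtain ⟨g, hg⟩ := ex₂ hd f (ih₁ _)
    rw [hg, ih₂ g, comp_zero]

/-- (O2). -/
lemma lf {B X : T} [MonObj B] (h : Cell C A) (H : ∀ n ∈ C, Lf B ((𝟙_ T)⟦n⟧) X)
    (H1 : ∀ n ∈ C, Zr ((𝟙_ T)⟦n + 1⟧) (B ⊗ X)) : Lf B A X := by
  induction h with
  | sph n hn e => exact (H n hn).iso e.symm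
  | @ext A₁ A A₂ i p d hd h₁ h₂ ih₁ ih₂ =>
    intro f hf
    obtain ⟨g, hg⟩ := ex₂ hd f
      (ih₁ (i ≫ f) (by rw [Category.assoc, hf, comp_zero]))
    subst hg
    have h2 : g ≫ unitMap B X = 0 := by
      obtain ⟨k, hk⟩ := ex₃ hd (g ≫ unitMap B X) (by rw [← Category.assoc]; exact hf)
      have h4 : Zr (A₁⟦(1 : ℤ)⟧) (B ⊗ X) := by
        refine (h₁.shift 1).zr fun n hn => ?_
        have h5 := H1 _ hn
        rwa [sub_add_cancel] at h5
      rw [hk, h4 k, comp_zero]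
    rw [ih₂ g h2, comp_zero]

section tensor

variable [SymmetricCategory T] [TensorTriangulated T]

lemma tensor_sph (h : Cell C A) (n : ℤ) : Cell {m | m - n ∈ C} (((𝟙_ T)⟦n⟧) ⊗ A) :=
  (h.shift n).iso (sphTensor n A).symm

lemma tensor (hA : Cell C A) (hW : Cell D W) :
    Cell {n | ∃ a ∈ C, ∃ b ∈ D, n = a + b} (A ⊗ W) := by
  induction hA with
  | sph n hn e =>
    refine ((hW.tensor_sph n).iso (whiskerRightIso e W).symm).mono ?_
    intro m hm
    exact ⟨n, hn, m - n, hm, by ring⟩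
  | ext i p d hd _ _ ih₁ ih₂ =>
    exact .ext _ _ _ (dist_whiskerRight W hd) ih₁ ih₂

lemma zr_tensor (W M : T) (h : Cell C A) (H : ∀ n ∈ C, Zr (((𝟙_ T)⟦n⟧) ⊗ W) M) :
    Zr (A ⊗ W) M := by
  induction h with
  | sph n hn e => exact (H n hn).iso (whiskerRightIso e W).symm
  | @ext A₁ A A₂ i p d hd _ _ ih₁ ih₂ =>
    intro f
    obtain ⟨g, hg⟩ : ∃ g : A₂ ⊗ W ⟶ M, f = (p ▷ W) ≫ g :=
      ex₂ (dist_whiskerRight W hd) f (ih₁ _)
    rw [hg, ih₂ g, comp_zero]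

end tensor

end Cell

end Vale.Agent.P257.V4.O
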