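import Vale.Agent.P257.V4.O.Num
import Vale.Agent.P257.V4.E.Step
import Vale.Agent.P257.V4.E.TowC
import Vale.Agent.P251.S.AmitsurCobar

/-!
# P257, part O: `V(0), …, V(3)` with left unital pairings, in the format of part E
-/

open CategoryTheory MonoidalCategory Limits Pretriangulated MonObj

set_option linter.unusedSectionVars false

universe v u

namespace Vale.Agent.P257.V4.O

open Vale.Agent.P251.T Vale.Agent.P251.M Vale.Agent.P251.S Vale.Agent.P257.V4.A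
  Vale.Agent.P257.V4.E

/-- The algebraic tower: `I n` is the ideal `(v_0, …, v_{n-1})`, `z k` the element `v_k`. -/
structure KTow (K : CosR) (N : ℕ) (I : ℕ → ∀ (s : ℕ) (w : ℤ), AddSubgroup (K.wt s w)) (w : ℕ → ℤ)
    (z : ∀ k, K.wt 0 (w k)) : Prop where
  zero : ∀ n k, 1 ≤ n → n ≤ N → k < n → z k ∈ I n 0 (w k)
  coc : ∀ n, 1 ≤ n → n < N → K.d 0 (w n) (z n) ∈ I n 1 (w n)
  reg : ∀ n, 1 ≤ n → n < N → ∀ (s : ℕ) (a b : ℤ) (h : a + w n = b) (y : K.wt s a),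
    K.mulw h y (RMod.vl K (z n) s) ∈ I n s b → y ∈ I n s a
  succ : ∀ n, 1 ≤ n → n < N → ∀ (s : ℕ) (a b : ℤ) (h : a + w n = b) (y : K.wt s b),
    y ∈ I (n + 1) s b ↔ ∃ y' : K.wt s a, y - K.mulw h y' (RMod.vl K (z n) s) ∈ I n s b

variable {T : Type u} [Category.{v} T] [Preadditive T] [HasZeroObject T]
    [HasShift T ℤ] [∀ n : ℤ, (shiftFunctor T n).Additive] [Pretriangulated T]
    [MonoidalCategory T] [SymmetricCategory T] [TensorTriangulated T] [HasCoproducts.{0} T]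
    {K : CosR} {R : T} [MonObj R] [IsCommMonObj R] (E : RMod K R)

/-- The class `𝟙⟦2 w⟧ ⟶ R` of an element of `K_w^0`. -/
noncomputable def cls {w : ℤ} (z : K.wt 0 w) : (𝟙_ T)⟦2 * w⟧ ⟶ R :=
  (sphE T w).inv ≫ E.evw 0 w z ≫ (λ_ R).hom

theorem hur_eq_ux {Z X : T} (a : Z ⟶ R) (u : 𝟙_ T ⟶ X) : hur a u = a ≫ ux u R := rfl

theorem evX_lam {X : T} (u : 𝟙_ T ⟶ X) {w : ℤ} (z : K.wt 0 w) :
    E.evX u 0 w z ≫ (λ_ R).hom ▷ X = (E.evw 0 w z ≫ (λ_ R).hom) ≫ ux u R := by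
  rw [RMod.evX_apply, Category.assoc, Category.assoc]
  exact congrArg _ (ux_nat u (λ_ R).hom)

theorem hur_cls {X : T} (u : 𝟙_ T ⟶ X) {w : ℤ} (z : K.wt 0 w) :
    hur (cls E z) u = (sphE T w).inv ≫ E.evX u 0 w z ≫ (λ_ R).hom ▷ X := by
  rw [hur_eq_ux, evX_lam, cls, Category.assoc]

theorem hur_cls_eq_zero {X : T} {u : 𝟙_ T ⟶ X} {w : ℤ} {z : K.wt 0 w} (h : z ∈ E.kx u 0 w) :
    hur (cls E z) u = 0 := by
  rw [hur_cls, (E.mem_kx).1 h, zero_comp, comp_zero]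

/-- `X ⊗ S^{2w} ≅ X⟦2w⟧` -/
noncomputable def sN (T : Type u) [Category.{v} T] [Preadditive T] [HasZeroObject T]
    [HasShift T ℤ] [∀ n : ℤ, (shiftFunctor T n).Additive] [Pretriangulated T]
    [MonoidalCategory T] [SymmetricCategory T] [TensorTriangulated T] (w : ℤ) :
    tensorRight ((stdEven T).S w) ≅ shiftFunctor T (2 * w) :=
  (stdEven T).shiftNat (Iso.refl _) w

omit [HasCoproducts.{0} T] in
theorem u_sN {X : T} (u : 𝟙_ T ⟶ X) (w : ℤ) :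
    (λ_ ((stdEven T).S w)).inv ≫ u ▷ ((stdEven T).S w) ≫ (sN T w).hom.app X =
      (sphE T w).hom ≫ u⟦2 * w⟧' := by
  have h : u ▷ ((stdEven T).S w) ≫ (sN T w).hom.app X = (sN T w).hom.app (𝟙_ T) ≫ u⟦2 * w⟧' :=
    (sN T w).hom.naturality u
  rw [h, ← Category.assoc]
  rfl

omit [HasCoproducts.{0} T] in
theorem dist_sN {X X' : T} {w : ℤ} {f : X⟦2 * w⟧ ⟶ X} {p : X ⟶ X'}
    {δ : X' ⟶ X⟦2 * w⟧⟦(1 : ℤ)⟧} (h : Triangle.mk f p δ ∈ distTriang T) :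
    Triangle.mk ((sN T w).hom.app X ≫ f) p (δ ≫ ((sN T w).inv.app X)⟦(1 : ℤ)⟧') ∈
      distTriang T := by
  refine isomorphic_distinguished _ h _ ?_
  refine Triangle.isoMk _ _ ((sN T w).app X) (Iso.refl _) (Iso.refl _) ?_ ?_ ?_
  · change ((sN T w).hom.app X ≫ f) ≫ 𝟙 _ = (sN T w).hom.app X ≫ f
    rw [Category.comp_id]
  · change p ≫ 𝟙 _ = 𝟙 _ ≫ p
    rw [Category.comp_id, Category.id_comp]
  · change (δ ≫ ((sN T w).inv.app X)⟦(1 : ℤ)⟧') ≫ ((sN T w).hom.app X)⟦(1 : ℤ)⟧' = 𝟙 _ ≫ δ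
    rw [Category.assoc, ← Functor.map_comp, Iso.inv_hom_id_app, Category.id_comp]
    exact (congrArg _ (CategoryTheory.Functor.map_id _ _)).trans (Category.comp_id _)

omit [HasCoproducts.{0} T] in
/-- The Hurewicz image of a self map in the two formats. -/
theorem hur_sN {X : T} {u : 𝟙_ T ⟶ X} {w : ℤ} (f : X⟦2 * w⟧ ⟶ X) {M : T} (g : X ⟶ M) :
    ((λ_ ((stdEven T).S w)).inv ≫ u ▷ ((stdEven T).S w) ≫ (sN T w).hom.app X ≫ f) ≫ g =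
      (sphE T w).hom ≫ u⟦2 * w⟧' ≫ f ≫ g := by
  have h := u_sN u w
  calc _ = ((λ_ ((stdEven T).S w)).inv ≫ u ▷ ((stdEven T).S w) ≫ (sN T w).hom.app X) ≫ f ≫ g := by
        simp only [Category.assoc]
    _ = _ := by rw [h, Category.assoc]

theorem hv_of {X : T} {u : 𝟙_ T ⟶ X} {w : ℤ} {z : K.wt 0 w} {f : X⟦2 * w⟧ ⟶ X}
    (hf : u⟦2 * w⟧' ≫ f ≫ unitMap R X = hur (cls E z) u) :
    ((λ_ _).inv ≫ u ▷ (stdEven T).S w ≫ ((sN T w).hom.app X ≫ f)) ≫ unitMap R X =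
      (E.evw 0 w z ≫ (λ_ R).hom) ≫ ux u R := by
  rw [hur_sN, hf, hur_cls, Iso.hom_inv_id_assoc, evX_lam]

/-- A cocycle of `K / I` in degree zero gives a cocycle of the tower. -/
theorem coc_of (U : UnitCof R) {X : T} {u : 𝟙_ T ⟶ X} {w : ℤ} {z : K.wt 0 w}
    (hz : K.d 0 w z ∈ E.kx u 1 w) : hur (cls E z) u ≫ U.cobar.d 1 X = 0 := by
  have h1 : (U.θ 1 X).hom = (λ_ R).inv ▷ X := by
    rw [UnitCof.θ_succ, UnitCof.θ_zero]
    change (λ_ (R ⊗ X)).inv ≫ (α_ (𝟙_ T) R X).inv = _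
    simp
  have h2 := U.d_θ 1 X
  rw [← cancel_mono (U.θ 2 X).hom, zero_comp, Category.assoc, h2, h1, hur_cls]
  have h3 : (λ_ R).hom ▷ X ≫ (λ_ R).inv ▷ X = 𝟙 _ := by
    rw [← comp_whiskerRight, Iso.hom_inv_id, id_whiskerRight]
  simp only [Category.assoc]
  rw [reassoc_of% h3, ← RMod.evX_d, (E.mem_kx).1 hz, comp_zero]

/-- The lift of `v_n`. -/
theorem exists_lift_cls (U : UnitCof R) {X : T} {u : 𝟙_ T ⟶ X} {w : ℤ} {z : K.wt 0 w}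
    (hz : K.d 0 w z ∈ E.kx u 1 w) (hc : Conn U X)
    (hg : ∀ s, 1 ≤ s → (cpl U X).Van s (2 * w - 1)) :
    ∃ x : (𝟙_ T)⟦2 * w⟧ ⟶ X, x ≫ unitMap R X = hur (cls E z) u := by
  have e : 2 * w + ((0 : ℕ) : ℤ) = 2 * w := by simp
  have hcoc := isCocycle_qC U X (𝟙_ T) e (hur (cls E z) u) (coc_of E U hz)
  obtain ⟨x, hx⟩ := exists_lift_of hc (m := 2 * w - 1) (by ring) (fun s hs => hg s (by omega)) _
    hcoc
  refine ⟨dT U X (𝟙_ T) e x, ?_⟩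
  have h1 := eT_j U X (𝟙_ T) e x
  have h2 := eT_qC U X (𝟙_ T) e (hur (cls E z) u)
  rw [CobarData.q_zero, Category.comp_id] at h2
  exact h1.symm.trans ((congrArg _ hx).trans h2)

section main

variable {I : ℕ → ∀ (s : ℕ) (w : ℤ), AddSubgroup (K.wt s w)} {w : ℕ → ℤ} {z : ∀ k, K.wt 0 (w k)}
  {q : ℤ}

/-- `X` is an iterated cofibre of `v_0, …, v_{n-1}` and `R_* X = R_* / (v_0, …, v_{n-1})`. -/
structure IV (E : RMod K R) (q : ℤ) (I : ℕ → ∀ (s : ℕ) (w : ℤ), AddSubgroup (K.wt s w))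
    {w : ℕ → ℤ} (z : ∀ k, K.wt 0 (w k)) (n : ℕ) {X : T} (u : 𝟙_ T ⟶ X) : Prop where
  ch : Ch (fun k => cls E (z k)) n X u
  xm : E.XM q u
  ker : ∀ s a, E.kx u s a = I n s a

/-- The step. -/
theorem IV.step {N : ℕ} (hK : KTow K N I w z) (hq2 : 2 ∣ q) (hqw : ∀ k, q ∣ 2 * w k) {n : ℕ}
    (hn : 1 ≤ n) (hN : n < N) {X : T} {u : 𝟙_ T ⟶ X} (h : IV E q I z n u) {f : X⟦2 * w n⟧ ⟶ X}
    {X' : T} {p : X ⟶ X'} {δ : X' ⟶ X⟦2 * w n⟧⟦(1 : ℤ)⟧}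
    (hd : Triangle.mk f p δ ∈ distTriang T)
    (hf : u⟦2 * w n⟧' ≫ f ≫ unitMap R X = hur (cls E (z n)) u) : IV E q I z (n + 1) (u ≫ p) where
  ch := h.ch.step f p δ hd hf
  xm := by
    refine RMod.XM.step E (hv_of E hf) (dist_sN hd) hq2 (hqw n) ?_ h.xm
    intro s a b hab y hy
    rw [h.ker] at hy ⊢
    exact hK.reg n hn hN s a b hab y hy
  ker s b := by
    ext y
    rw [RMod.XM.mem_kx_step E (hv_of E hf) (dist_sN hd) h.xm (sub_add_cancel b (w n)) y,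
      hK.succ n hn hN s _ b (sub_add_cancel b (w n)) y, h.ker]

theorem XM.zr {X : T} {u : 𝟙_ T ⟶ X} (h : E.XM q u) {t : ℤ} (ht : ¬ q ∣ t) :
    Zr ((𝟙_ T)⟦t⟧) (R ⊗ X) := by
  intro f
  have h1 := h.spa 0 t ht (f ≫ (λ_ R).inv ▷ X)
  have h2 : (λ_ R).inv ▷ X ≫ (λ_ R).hom ▷ X = 𝟙 _ := by
    rw [← comp_whiskerRight, Iso.inv_hom_id, id_whiskerRight]
  calc f = (f ≫ (λ_ R).inv ▷ X) ≫ (λ_ R).hom ▷ X := by rw [Category.assoc, h2, Category.comp_id]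
    _ = 0 := by rw [h1, zero_comp]

/-- **`V(0), …, V(3)` exist with left unital pairings.** -/
theorem exists_V (U : UnitCof R) {p : ℕ} [Fact p.Prime] (hp : 11 ≤ p)
    (hw : ∀ k, 2 * w k = ((2 * p - 2 : ℕ) : ℤ) * Ch.N p k) {N : ℕ} (hN : 4 ≤ N)
    (hK : KTow K N I w z)
    (h1 : ∃ (X : T) (u : 𝟙_ T ⟶ X), IV E ((2 * p - 2 : ℕ) : ℤ) I z 1 u)
    (hcon : ∀ (n : ℕ) (X : T) (u : 𝟙_ T ⟶ X), 1 ≤ n → n ≤ 4 →
      IV E ((2 * p - 2 : ℕ) : ℤ) I z n u → Conn U X)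
    (hcmp : ∀ (n : ℕ) (X : T) (u : 𝟙_ T ⟶ X), 1 ≤ n → n ≤ 4 →
      IV E ((2 * p - 2 : ℕ) : ℤ) I z n u → Cmp U p n X)
    (hV : OutV p) (hM : OutMu p) :
    ∀ n, 1 ≤ n → n ≤ 4 → ∃ (X : T) (u : 𝟙_ T ⟶ X) (m : X ⊗ X ⟶ X),
      IV E ((2 * p - 2 : ℕ) : ℤ) I z n u ∧ (u ▷ X) ≫ m = (λ_ X).hom := by
  have hqw : ∀ k, ((2 * p - 2 : ℕ) : ℤ) ∣ 2 * w k := fun k => by
    rw [hw k]; exact Dvd.intro _ rfl
  have hq2 : (2 : ℤ) ∣ ((2 * p - 2 : ℕ) : ℤ) := by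
    exact Int.natCast_dvd_natCast.2 ⟨p - 1, by rw [Nat.mul_sub]⟩
  intro n hn1 hn4
  obtain ⟨X, u, m, -, h, hm⟩ := exists_tower' (v := fun k => cls E (z k)) (N := 4) U hqw
    (by push_cast; omega) (fun n _ u => IV E ((2 * p - 2 : ℕ) : ℤ) I z n u)
    (by obtain ⟨X, u, h⟩ := h1; exact ⟨X, u, h.ch, h⟩)
    (fun n X u _ _ h t ht => XM.zr E h.xm ht) hcon
    (fun n X u hn hn' h k hk => hur_cls_eq_zero E
      (by rw [h.ker]; exact hK.zero n k hn (by omega) hk))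
    (fun n X u hn hn' h => exists_lift_cls E U (by rw [h.ker]; exact hK.coc n hn (by omega))
      (hcon n X u hn (by omega) h)
      fun s hs => (hcmp n X u hn (by omega) h).vanL hp hV hn (by omega) (by rw [hw n]) s hs)
    (fun n X u hn hn' h k hk a ha b hb => (hcmp n X u hn hn' h).vanP hp hM hn' hw hk ha hb)
    (fun n X u hn hn' _ h f X' p' δ hd hf => h.step E hK hq2 hqw hn (by omega) hd hf) n hn1 hn4
  exact ⟨X, u, m, h, hm⟩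

end main

end Vale.Agent.P257.V4.O
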