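import Vale.Agent.P257.V4.O.Lift
import Vale.Agent.P251.S.KosData

/-!
# P257, part O: iterated cofibres `V(0), V(1), …` and left unital pairings (O2, O3)

`Ch v n X u`: the object `X` (with the map `u : 𝟙 ⟶ X`) is an iterated cofibre of `n` maps
`f : X_k⟦d k⟧ ⟶ X_k` whose restriction to the bottom cell has Hurewicz class `v k · u`.
`Ch.pair`: the pairing theorem.
-/

open CategoryTheory MonoidalCategory Limits Pretriangulated MonObj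

set_option linter.unusedSectionVars false

universe v u

namespace Vale.Agent.P257.V4.O

open Vale.Agent.P251.T Vale.Agent.P251.S

section hur

variable {T : Type u} [Category.{v} T] [MonoidalCategory T] {B : T} [MonObj B]

/-- the class `v · u` -/
def hur {Z X : T} (v : Z ⟶ B) (u : 𝟙_ T ⟶ X) : Z ⟶ B ⊗ X := v ≫ (ρ_ B).inv ≫ B ◁ u

@[reassoc]
theorem hur_comp {Z X Y : T} (v : Z ⟶ B) (u : 𝟙_ T ⟶ X) (g : X ⟶ Y) :
    hur v u ≫ B ◁ g = hur v (u ≫ g) := by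
  simp [hur]

theorem comp_hur {Z Z' X : T} (a : Z' ⟶ Z) (v : Z ⟶ B) (u : 𝟙_ T ⟶ X) :
    a ≫ hur v u = hur (a ≫ v) u := by
  simp [hur]

/-- The right multiplication by the unit of `Y` for a pairing `g : X ⊗ Y ⟶ Y`. -/
def rmap {X Y : T} (uY : 𝟙_ T ⟶ Y) (g : X ⊗ Y ⟶ Y) : X ⟶ Y := (ρ_ X).inv ≫ X ◁ uY ≫ g

theorem u_rmap {X Y : T} (u : 𝟙_ T ⟶ X) (uY : 𝟙_ T ⟶ Y) (g : X ⊗ Y ⟶ Y)
    (hg : (u ▷ Y) ≫ g = (λ_ Y).hom) : u ≫ rmap uY g = uY := by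
  rw [rmap, rightUnitor_inv_naturality_assoc, ← whisker_exchange_assoc, hg,
    leftUnitor_naturality]
  simp [unitors_equal]

end hur

variable {T : Type u} [Category.{v} T] [Preadditive T] [HasZeroObject T] [HasShift T ℤ]
  [∀ n : ℤ, (shiftFunctor T n).Additive] [Pretriangulated T] [MonoidalCategory T]
  [SymmetricCategory T] [TensorTriangulated T]

/-- restriction along `b` is injective on maps to `M` -/
def InjAt (M : T) {A' A : T} (b : A' ⟶ A) : Prop := ∀ f : A ⟶ M, b ≫ f = 0 → f = 0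

theorem InjAt.comp {M A A' A'' : T} {b : A ⟶ A'} {b' : A' ⟶ A''} (h : InjAt M b)
    (h' : InjAt M b') : InjAt M (b ≫ b') := fun f hf =>
  h' f (h _ (by rw [← Category.assoc, hf]))

theorem InjAt.of_isIso {M A A' : T} (b : A ⟶ A') [IsIso b] : InjAt M b := fun f hf => by
  rw [← cancel_epi b, hf, comp_zero]

theorem InjAt.conj {M A A' C C' : T} {b : A' ⟶ A} {c : C' ⟶ C} (e' : A' ≅ C') (e : A ≅ C)
    (h : b ≫ e.hom = e'.hom ≫ c) (hc : InjAt M c) : InjAt M b := by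
  have h2 : b = e'.hom ≫ c ≫ e.inv := by rw [← reassoc_of% h, Iso.hom_inv_id, Category.comp_id]
  rw [h2]
  exact (InjAt.of_isIso _).comp (hc.comp (InjAt.of_isIso _))

theorem InjAt.of_dist {M A' A A'' : T} {i : A' ⟶ A} {p : A ⟶ A''} {δ : A'' ⟶ A'⟦(1 : ℤ)⟧}
    (h : Triangle.mk i p δ ∈ distTriang T) (hz : Zr A'' M) : InjAt M i := by
  intro f hf
  obtain ⟨g, hg⟩ : ∃ g : A'' ⟶ M, f = p ≫ g := Triangle.yoneda_exact₂ _ h f hf
  rw [hg, hz g, comp_zero]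

/-- `X⟦d⟧ ≅ S^d ⊗ X` -/
noncomputable def shIso (d : ℤ) (X : T) : X⟦d⟧ ≅ ((𝟙_ T)⟦d⟧) ⊗ X :=
  (shiftFunctor T d).mapIso (ρ_ X).symm ≪≫ (csh X d (𝟙_ T)).symm ≪≫ β_ X ((𝟙_ T)⟦d⟧)

@[reassoc]
theorem shIso_nat (d : ℤ) {X Y : T} (f : X ⟶ Y) :
    f⟦d⟧' ≫ (shIso d Y).hom = (shIso d X).hom ≫ ((𝟙_ T)⟦d⟧) ◁ f := by
  have h1 : (f ▷ 𝟙_ T)⟦d⟧' ≫ (csh Y d (𝟙_ T)).inv =
      (csh X d (𝟙_ T)).inv ≫ (f ▷ ((𝟙_ T)⟦d⟧)) := csh_inv_tlMap f d (𝟙_ T)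
  simp only [shIso, Iso.trans_hom, Functor.mapIso_hom, Iso.symm_hom, Category.assoc]
  rw [← Functor.map_comp_assoc, rightUnitor_inv_naturality, Functor.map_comp_assoc,
    reassoc_of% h1, BraidedCategory.braiding_naturality_left]

theorem shIso_unit (d : ℤ) : (shIso d (𝟙_ T)).hom = (ρ_ ((𝟙_ T)⟦d⟧)).inv := by
  have h := csh_leftUnitor (T := T) d (𝟙_ T)
  simp only [shIso, Iso.trans_hom, Functor.mapIso_hom, Iso.symm_hom]
  rw [← unitors_inv_equal, ← cancel_mono (ρ_ ((𝟙_ T)⟦d⟧)).hom]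
  have h2 : (β_ (𝟙_ T) ((𝟙_ T)⟦d⟧)).hom ≫ (ρ_ ((𝟙_ T)⟦d⟧)).hom = (λ_ ((𝟙_ T)⟦d⟧)).hom := by
    simp
  simp only [Category.assoc, Iso.inv_hom_id, h2]
  rw [← h, Iso.inv_hom_id_assoc, ← Functor.map_comp, Iso.inv_hom_id,
    CategoryTheory.Functor.map_id]

section chain

variable {B : T} [MonObj B] {d : ℕ → ℤ} (v : ∀ k, (𝟙_ T)⟦d k⟧ ⟶ B)

/-- iterated cofibres -/
inductive Ch : ℕ → ∀ X : T, (𝟙_ T ⟶ X) → Prop
  | base : Ch 0 (𝟙_ T) (𝟙 _)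
  | step {n : ℕ} {X : T} {u : 𝟙_ T ⟶ X} (h : Ch n X u) (f : X⟦d n⟧ ⟶ X) {X' : T} (p : X ⟶ X')
      (δ : X' ⟶ X⟦d n⟧⟦(1 : ℤ)⟧) (hd : Triangle.mk f p δ ∈ distTriang T)
      (hf : u⟦d n⟧' ≫ f ≫ unitMap B X = hur (v n) u) : Ch (n + 1) X' (u ≫ p)

/-- the dimensions of the cells -/
def St (d : ℕ → ℤ) : ℕ → Set ℤ
  | 0 => {0}
  | n + 1 => St d n ∪ {t | t - 1 - d n ∈ St d n}

/-- the dimensions of the cells, without the bottom cell -/
def Sp (d : ℕ → ℤ) : ℕ → Set ℤ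
  | 0 => ∅
  | n + 1 => Sp d n ∪ {t | t - 1 - d n ∈ St d n}

theorem St_mod {q : ℤ} (hd : ∀ k, q ∣ d k) : ∀ {n : ℕ} {t : ℤ}, t ∈ St d n →
    ∃ a : ℕ, a ≤ n ∧ q ∣ t - a
  | 0, t, ht => ⟨0, le_refl _, by obtain rfl : t = 0 := ht; simp⟩
  | n + 1, t, ht => by
    rcases ht with ht | ht
    · obtain ⟨a, ha, h⟩ := St_mod hd ht
      exact ⟨a, by omega, h⟩
    · obtain ⟨a, ha, h⟩ := St_mod hd ht
      refine ⟨a + 1, by omega, ?_⟩
      have := dvd_add h (hd n)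
      have e : t - 1 - d n - a + d n = t - ((a + 1 : ℕ) : ℤ) := by push_cast; ring
      rwa [e] at this

theorem Sp_mod {q : ℤ} (hd : ∀ k, q ∣ d k) : ∀ {n : ℕ} {t : ℤ}, t ∈ Sp d n →
    ∃ a : ℕ, 1 ≤ a ∧ a ≤ n ∧ q ∣ t - a
  | n + 1, t, ht => by
    rcases ht with ht | ht
    · obtain ⟨a, ha, h, h'⟩ := Sp_mod hd ht
      exact ⟨a, ha, by omega, h'⟩
    · obtain ⟨a, ha, h⟩ := St_mod hd ht
      refine ⟨a + 1, by omega, by omega, ?_⟩
      have := dvd_add h (hd n)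
      have e : t - 1 - d n - a + d n = t - ((a + 1 : ℕ) : ℤ) := by push_cast; ring
      rwa [e] at this

theorem not_dvd_of {q : ℤ} {t : ℤ} {a : ℕ} (h : q ∣ t - a) (h1 : 1 ≤ a) (h2 : (a : ℤ) < q) :
    ¬ q ∣ t := by
  intro h3
  have h4 : q ∣ (a : ℤ) := by
    have := dvd_sub h3 h
    simpa using this
  have := Int.le_of_dvd (by omega) h4
  omega

variable {v}

theorem rot_dist {X X' Y : T} {f : Y ⟶ X} {p : X ⟶ X'} {δ : X' ⟶ Y⟦(1 : ℤ)⟧}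
    (h : Triangle.mk f p δ ∈ distTriang T) :
    Triangle.mk p δ (-f⟦(1 : ℤ)⟧') ∈ distTriang T := rot_of_distTriang _ h

theorem Ch.cell {n : ℕ} {X : T} {u : 𝟙_ T ⟶ X} (h : Ch v n X u) : Cell (St d n) X := by
  induction h with
  | base => exact Cell.sph 0 rfl ((shiftFunctorZero T ℤ).symm.app (𝟙_ T))
  | @step n X u h f X' p δ hd hf ih =>
    refine Cell.ext p δ _ (rot_dist hd) (ih.mono Set.subset_union_left) ?_
    refine ((ih.shift (d n)).shift 1).mono ?_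
    exact Set.subset_union_right

theorem Ch.injL {n : ℕ} {X : T} {u : 𝟙_ T ⟶ X} (h : Ch v n X u) {D : Set ℤ} {W M : T}
    (hW : Cell D W) (hz : ∀ a ∈ D, ∀ t ∈ Sp d n, Zr ((𝟙_ T)⟦a + t⟧) M) :
    InjAt M (W ◁ u) := by
  induction h with
  | base => rw [MonoidalCategory.whiskerLeft_id]; exact InjAt.of_isIso _
  | @step n X u h f X' p δ hd hf ih =>
    rw [MonoidalCategory.whiskerLeft_comp]
    refine (ih fun a ha t ht => hz a ha t (Set.mem_union_left _ ht)).comp ?_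
    refine InjAt.of_dist (tens_dist W (rot_dist hd)) ?_
    refine (hW.tensor ((h.cell.shift (d n)).shift 1)).zr ?_
    rintro t ⟨a, ha, b, hb, rfl⟩
    exact hz a ha b (Set.mem_union_right _ hb)

/-- restriction to the bottom cell -/
theorem Ch.injR {n : ℕ} {X : T} {u : 𝟙_ T ⟶ X} (h : Ch v n X u) (e : ℤ) {D : Set ℤ} {W M : T}
    (hW : Cell D W) (hz : ∀ a ∈ D, ∀ t ∈ Sp d n, Zr ((𝟙_ T)⟦e + a + t⟧) M) :
    InjAt M (u⟦e⟧' ▷ W) := by
  have h1 : Cell {n | ∃ a ∈ ({e} : Set ℤ), ∃ b ∈ D, n = a + b} (((𝟙_ T)⟦e⟧) ⊗ W) :=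
    Cell.tensor (Cell.sph e rfl (Iso.refl _)) hW
  have h2 : InjAt M ((((𝟙_ T)⟦e⟧) ⊗ W) ◁ u) := by
    refine h.injL h1 ?_
    rintro a ⟨x, hx, b, hb, rfl⟩ t ht
    obtain rfl : x = e := hx
    exact hz b hb t ht
  let E : ∀ X : T, (X⟦e⟧) ⊗ W ≅ (((𝟙_ T)⟦e⟧) ⊗ W) ⊗ X := fun X =>
    whiskerRightIso (shIso e X) W ≪≫ α_ _ _ _ ≪≫ whiskerLeftIso _ (β_ X W) ≪≫ (α_ _ _ _).symm
  refine InjAt.conj (E (𝟙_ T)) (E X) ?_ h2
  simp only [E, Iso.trans_hom, whiskerRightIso_hom, whiskerLeftIso_hom, Iso.symm_hom,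
    Category.assoc]
  rw [← comp_whiskerRight_assoc, shIso_nat, comp_whiskerRight_assoc]
  have h3 : u ▷ W ≫ (β_ X W).hom = (β_ (𝟙_ T) W).hom ≫ W ◁ u :=
    BraidedCategory.braiding_naturality_left u W
  rw [associator_naturality_middle_assoc, ← MonoidalCategory.whiskerLeft_comp_assoc, h3,
    MonoidalCategory.whiskerLeft_comp_assoc, associator_inv_naturality_right]

theorem St_tensor {D : Set ℤ} {e : ℤ} {n : ℕ} {X W : T} (hX : Cell (St d n) X) (hW : Cell D W) :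
    Cell {t | ∃ a ∈ St d n, ∃ b ∈ D, t = e + a + b} (X⟦e⟧ ⊗ W) := by
  refine ((hX.shift e).tensor hW).mono ?_
  rintro t ⟨a, ha, b, hb, rfl⟩
  exact ⟨a - e, ha, b, hb, by ring⟩

/-- **The pairing theorem.** -/
theorem Ch.pair {q : ℤ} (hd : ∀ k, q ∣ d k) {n : ℕ} {Y : T} {uY : 𝟙_ T ⟶ Y} (hY : Ch v n Y uY)
    (hz : ∀ t : ℤ, ¬ q ∣ t → Zr ((𝟙_ T)⟦t⟧) (B ⊗ Y)) {m : ℕ} {X : T} {u : 𝟙_ T ⟶ X}
    (hX : Ch v m X u) (hmn : (m : ℤ) + n < q) (hv : ∀ k < m, hur (v k) uY = 0)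
    (hl : ∀ k < m, ∀ a ∈ St d k, ∀ b ∈ St d n, Lf B ((𝟙_ T)⟦d k + a + b⟧) Y) :
    ∃ g : X ⊗ Y ⟶ Y, (u ▷ Y) ≫ g = (λ_ Y).hom := by
  induction hX with
  | base => exact ⟨(λ_ Y).hom, by simp⟩
  | @step m X u h f X' p δ hδ hf ih =>
    obtain ⟨g, hg⟩ := ih (by push_cast at hmn; omega) (fun k hk => hv k (by omega))
      (fun k hk => hl k (by omega))
    have hm1 : (m : ℤ) + n + 1 < q := by push_cast at hmn; omega
    have hzero : f ▷ Y ≫ g = 0 := by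
      refine ((St_tensor (e := d m) h.cell hY.cell).lf (B := B) (X := Y) ?_ ?_) _ ?_
      · rintro t ⟨a, ha, b, hb, rfl⟩
        exact hl m (by omega) a ha b hb
      · rintro t ⟨a, ha, b, hb, rfl⟩
        obtain ⟨i, hi, hi'⟩ := St_mod hd ha
        obtain ⟨j, hj, hj'⟩ := St_mod hd hb
        refine hz _ (not_dvd_of (a := i + j + 1) ?_ (by omega) (by push_cast; omega))
        have := dvd_add (dvd_add hi' hj') (hd m)
        have e : a - i + (b - j) + d m = d m + a + b + 1 - ((i + j + 1 : ℕ) : ℤ) := by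
          push_cast; ring
        rwa [e] at this
      · -- restriction to the bottom cell
        have hb2 : InjAt (B ⊗ Y) (u⟦d m⟧' ▷ Y) := by
          refine h.injR (d m) hY.cell ?_
          intro b hb a ha
          obtain ⟨i, hi1, hi, hi'⟩ := Sp_mod hd ha
          obtain ⟨j, hj, hj'⟩ := St_mod hd hb
          refine hz _ (not_dvd_of (a := i + j) ?_ (by omega) (by push_cast; omega))
          have := dvd_add (dvd_add hi' hj') (hd m)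
          have e : a - i + (b - j) + d m = d m + b + a - ((i + j : ℕ) : ℤ) := by
            push_cast; ring
          rwa [e] at this
        have hb1 : InjAt (B ⊗ Y) (((𝟙_ T)⟦d m⟧) ◁ uY) := by
          refine hY.injL (D := {d m}) (Cell.sph (d m) rfl (Iso.refl _)) ?_
          intro a ha b hb
          obtain rfl : a = d m := ha
          obtain ⟨i, hi1, hi, hi'⟩ := Sp_mod hd hb
          refine hz _ (not_dvd_of (a := i) ?_ (by omega) (by omega))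
          have := dvd_add hi' (hd m)
          have e : b - i + d m = d m + b - (i : ℤ) := by ring
          rwa [e] at this
        have hb0 := ((InjAt.of_isIso (M := B ⊗ Y) (ρ_ ((𝟙_ T)⟦d m⟧)).inv).comp hb1).comp hb2
        apply hb0
        have e1 : ((ρ_ ((𝟙_ T)⟦d m⟧)).inv ≫ ((𝟙_ T)⟦d m⟧) ◁ uY) ≫ u⟦d m⟧' ▷ Y ≫ f ▷ Y ≫ g =
            (u⟦d m⟧' ≫ f) ≫ rmap uY g := by
          rw [rmap, rightUnitor_inv_naturality_assoc, ← comp_whiskerRight_assoc,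
            ← whisker_exchange_assoc, Category.assoc]
        have e2 : (u⟦d m⟧' ≫ f ≫ rmap uY g) ≫ unitMap B Y = hur (v m) uY := by
          rw [Category.assoc, Category.assoc, unitMap_nat, reassoc_of% hf, hur_comp, u_rmap _ _ _ hg]
        calc _ = (((ρ_ ((𝟙_ T)⟦d m⟧)).inv ≫ ((𝟙_ T)⟦d m⟧) ◁ uY) ≫ u⟦d m⟧' ▷ Y ≫
              f ▷ Y ≫ g) ≫ unitMap B Y := by simp only [Category.assoc]
          _ = 0 := by
            rw [e1]
            simp only [Category.assoc] at e2 ⊢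
            rw [e2]
            exact hv m (by omega)
    obtain ⟨g', hg'⟩ : ∃ g' : X' ⊗ Y ⟶ Y, g = (p ▷ Y) ≫ g' :=
      Triangle.yoneda_exact₂ _ (tensR_dist Y hδ) g hzero
    exact ⟨g', by rw [comp_whiskerRight, Category.assoc, ← hg', hg]⟩

/-- The self map defined by a lift `w` of `v · u` and a left unital pairing. -/
noncomputable def selfMap {X : T} {e : ℤ} (m : X ⊗ X ⟶ X) (w : (𝟙_ T)⟦e⟧ ⟶ X) : X⟦e⟧ ⟶ X :=
  (shIso e X).hom ≫ w ▷ X ≫ m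

theorem u_selfMap {X : T} {e : ℤ} (u : 𝟙_ T ⟶ X) (m : X ⊗ X ⟶ X) (w : (𝟙_ T)⟦e⟧ ⟶ X) :
    u⟦e⟧' ≫ selfMap m w = w ≫ rmap u m := by
  rw [selfMap, shIso_nat_assoc, shIso_unit, rmap, rightUnitor_inv_naturality_assoc,
    whisker_exchange_assoc]

theorem hur_selfMap {X : T} {e : ℤ} {u : 𝟙_ T ⟶ X} {m : X ⊗ X ⟶ X}
    (hm : (u ▷ X) ≫ m = (λ_ X).hom) {w : (𝟙_ T)⟦e⟧ ⟶ X} {v : (𝟙_ T)⟦e⟧ ⟶ B}
    (hw : w ≫ unitMap B X = hur v u) :
    u⟦e⟧' ≫ selfMap m w ≫ unitMap B X = hur v u := by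
  rw [reassoc_of% u_selfMap u m w, unitMap_nat, reassoc_of% hw, hur_comp, u_rmap _ _ _ hm]

end chain

end Vale.Agent.P257.V4.O
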