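import Vale.Agent.P257.V4.O.Chain

/-!
# P257, part O: construction of `V(0), …, V(3)` with left unital pairings (O3)

Everything is relative to an abstract predicate `IV n X u` (meaning: B_* X is B_* modulo v_0, …, v_(n-1)).
-/

open CategoryTheory MonoidalCategory Limits Pretriangulated MonObj

set_option linter.unusedSectionVars false

universe v u

namespace Vale.Agent.P257.V4.O

open Vale.Agent.P251.T Vale.Agent.P251.S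

theorem St_finset {d : ℕ → ℤ} : ∀ {n : ℕ} {t : ℤ}, t ∈ St d n →
    ∃ S : Finset ℕ, S ⊆ Finset.range n ∧ t = ∑ i ∈ S, (d i + 1)
  | 0, t, ht => ⟨∅, by simp, by obtain rfl : t = 0 := ht; simp⟩
  | n + 1, t, ht => by
    rcases ht with ht | ht
    · obtain ⟨S, hS, rfl⟩ := St_finset ht
      exact ⟨S, hS.trans (Finset.range_mono (Nat.le_succ n)), rfl⟩
    · obtain ⟨S, hS, h⟩ := St_finset ht
      have hn : n ∉ S := fun h => by simpa using hS h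
      refine ⟨insert n S, ?_, ?_⟩
      · intro i hi
        rcases Finset.mem_insert.1 hi with rfl | hi
        · simp
        · exact Finset.range_mono (Nat.le_succ n) (hS hi)
      · rw [Finset.sum_insert hn, ← h]
        ring

variable {T : Type u} [Category.{v} T] [Preadditive T] [HasZeroObject T] [HasShift T ℤ]
  [∀ n : ℤ, (shiftFunctor T n).Additive] [Pretriangulated T] [MonoidalCategory T]
  [SymmetricCategory T] [TensorTriangulated T] {B : T} [MonObj B] {d : ℕ → ℤ}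
  {v : ∀ k, (𝟙_ T)⟦d k⟧ ⟶ B}

/-- Connectivity from the vanishing `Hom (𝟙⟦n⟧, B s X) = 0` for `n < q s`, `2 ≤ q`. -/
theorem Conn.of_lt {U : UnitCof B} {X : T} {q : ℤ} (hq : 2 ≤ q)
    (h : ∀ (s : ℕ) (n : ℤ), n < q * s → Zr ((𝟙_ T)⟦n⟧) (U.cobar.B s X)) : Conn U X := by
  intro n
  refine ⟨n.toNat + 1, fun s hs y => h s _ ?_ y⟩
  have h1 : n < s := by
    have := Int.self_le_toNat n
    omega
  have h2 : (2 : ℤ) * s ≤ q * s := by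
    have : (0 : ℤ) ≤ s := by positivity
    nlinarith
  linarith

/-- The next cofibre. -/
theorem Ch.next {n : ℕ} {X : T} {u : 𝟙_ T ⟶ X} (h : Ch v n X u) {m : X ⊗ X ⟶ X}
    (hm : (u ▷ X) ≫ m = (λ_ X).hom) {w : (𝟙_ T)⟦d n⟧ ⟶ X} (hw : w ≫ unitMap B X = hur (v n) u) :
    ∃ (f : X⟦d n⟧ ⟶ X) (X' : T) (p : X ⟶ X') (δ : X' ⟶ X⟦d n⟧⟦(1 : ℤ)⟧),
      f = selfMap m w ∧ Triangle.mk f p δ ∈ distTriang T ∧
      u⟦d n⟧' ≫ f ≫ unitMap B X = hur (v n) u ∧ Ch v (n + 1) X' (u ≫ p) := by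
  obtain ⟨X', p, δ, hδ⟩ := distinguished_cocone_triangle (selfMap m w)
  have h1 := hur_selfMap (B := B) hm hw
  exact ⟨_, X', p, δ, rfl, hδ, h1, h.step _ p δ hδ h1⟩

/-- **Construction of `V(0), …, V(N-1)`** with left unital pairings. -/
theorem exists_tower' (U : UnitCof B) {N : ℕ} {q : ℤ} (hd : ∀ k, q ∣ d k) (hq : 2 * (N : ℤ) < q)
    (IV : ℕ → ∀ X : T, (𝟙_ T ⟶ X) → Prop)
    (h1 : ∃ (X : T) (u : 𝟙_ T ⟶ X), Ch v 1 X u ∧ IV 1 X u)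
    (hsp : ∀ n X u, 1 ≤ n → n ≤ N → IV n X u → ∀ t : ℤ, ¬ q ∣ t → Zr ((𝟙_ T)⟦t⟧) (B ⊗ X))
    (hcon : ∀ n X u, 1 ≤ n → n ≤ N → IV n X u → Conn U X)
    (hzero : ∀ n X u, 1 ≤ n → n ≤ N → IV n X u → ∀ k < n, hur (v k) u = 0)
    (hlift : ∀ n X u, 1 ≤ n → n < N → IV n X u →
      ∃ w : (𝟙_ T)⟦d n⟧ ⟶ X, w ≫ unitMap B X = hur (v n) u)
    (hvanP : ∀ n X u, 1 ≤ n → n ≤ N → IV n X u → ∀ k < n, ∀ a ∈ St d k, ∀ b ∈ St d n,
      Good U X (d k + a + b))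
    (hstep : ∀ n X u, 1 ≤ n → n < N → Ch v n X u → IV n X u → ∀ (f : X⟦d n⟧ ⟶ X) (X' : T)
      (p : X ⟶ X') (δ : X' ⟶ X⟦d n⟧⟦(1 : ℤ)⟧), Triangle.mk f p δ ∈ distTriang T →
      u⟦d n⟧' ≫ f ≫ unitMap B X = hur (v n) u → IV (n + 1) X' (u ≫ p)) :
    ∀ n, 1 ≤ n → n ≤ N → ∃ (X : T) (u : 𝟙_ T ⟶ X) (m : X ⊗ X ⟶ X), Ch v n X u ∧ IV n X u ∧
      (u ▷ X) ≫ m = (λ_ X).hom := by
  have key : ∀ n X u, 1 ≤ n → n ≤ N → Ch v n X u → IV n X u →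
      ∃ m : X ⊗ X ⟶ X, (u ▷ X) ≫ m = (λ_ X).hom := by
    intro n X u hn hN h hI
    have hC := hcon n X u hn hN hI
    refine Ch.pair hd h (hsp n X u hn hN hI) h (by omega) (hzero n X u hn hN hI) ?_
    intro k hk a ha b hb
    exact (hvanP n X u hn hN hI k hk a ha b hb).lf hC
  intro n hn
  induction n, hn using Nat.le_induction with
  | base =>
    intro hN
    obtain ⟨X, u, h, hI⟩ := h1
    obtain ⟨m, hm⟩ := key 1 X u le_rfl hN h hI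
    exact ⟨X, u, m, h, hI, hm⟩
  | succ n hn ih =>
    intro hN
    obtain ⟨X, u, m, h, hI, hm⟩ := ih (by omega)
    obtain ⟨w, hw⟩ := hlift n X u hn (by omega) hI
    obtain ⟨f, X', p, δ, -, hδ, hf, h'⟩ := h.next hm hw
    have hI' := hstep n X u hn (by omega) h hI f X' p δ hδ hf
    obtain ⟨m', hm'⟩ := key (n + 1) X' (u ≫ p) (by omega) hN h' hI'
    exact ⟨X', u ≫ p, m', h', hI', hm'⟩

/-- The version with lifts from the vanishing of `E_2`. -/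
theorem exists_tower (U : UnitCof B) {N : ℕ} {q : ℤ} (hd : ∀ k, q ∣ d k) (hq : 2 * (N : ℤ) < q)
    (IV : ℕ → ∀ X : T, (𝟙_ T ⟶ X) → Prop)
    (h1 : ∃ (X : T) (u : 𝟙_ T ⟶ X), Ch v 1 X u ∧ IV 1 X u)
    (hsp : ∀ n X u, 1 ≤ n → n ≤ N → IV n X u → ∀ t : ℤ, ¬ q ∣ t → Zr ((𝟙_ T)⟦t⟧) (B ⊗ X))
    (hcon : ∀ n X u, 1 ≤ n → n ≤ N → IV n X u → Conn U X)
    (hzero : ∀ n X u, 1 ≤ n → n ≤ N → IV n X u → ∀ k < n, hur (v k) u = 0)
    (hcoc : ∀ n X u, 1 ≤ n → n < N → IV n X u →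
      hur (v n) u ≫ (U.ρ ▷ X) ≫ unitMap B (U.J ⊗ X) = 0)
    (hvanL : ∀ n X u, 1 ≤ n → n < N → IV n X u → ∀ s, 1 ≤ s → (cpl U X).Van s (d n - 1))
    (hvanP : ∀ n X u, 1 ≤ n → n ≤ N → IV n X u → ∀ k < n, ∀ a ∈ St d k, ∀ b ∈ St d n,
      Good U X (d k + a + b))
    (hstep : ∀ n X u, 1 ≤ n → n < N → Ch v n X u → IV n X u → ∀ (f : X⟦d n⟧ ⟶ X) (X' : T)
      (p : X ⟶ X') (δ : X' ⟶ X⟦d n⟧⟦(1 : ℤ)⟧), Triangle.mk f p δ ∈ distTriang T →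
      u⟦d n⟧' ≫ f ≫ unitMap B X = hur (v n) u → IV (n + 1) X' (u ≫ p)) :
    ∀ n, 1 ≤ n → n ≤ N → ∃ (X : T) (u : 𝟙_ T ⟶ X) (m : X ⊗ X ⟶ X), Ch v n X u ∧ IV n X u ∧
      (u ▷ X) ≫ m = (λ_ X).hom :=
  exists_tower' U hd hq IV h1 hsp hcon hzero (fun n X u hn hN hI =>
    exists_lift_zero (m := d n - 1) (hcon n X u hn (by omega) hI) (by ring)
      (hvanL n X u hn (by omega) hI) _ (hcoc n X u hn (by omega) hI)) hvanP hstep

end Vale.Agent.P257.V4.O
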