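import Vale.Agent.P257.V4.O.Main
import Vale.Agent.P257.V4.A.Out
import Mathlib.Tactic.LinearCombination

/-!
# P257, part O: the numerical adapter

From the outputs `OutV`, `OutMu` of part A and the comparison of part E
(`H^s` of the tower of `X` in weight `D < N_n + s` is `H^s_D` of `Ch p`) to the hypotheses `hvanL`,
`hvanP` of `exists_tower`.
-/

open CategoryTheory MonoidalCategory Limits Pretriangulated MonObj

set_option linter.unusedSectionVars false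

universe v u

namespace Vale.Agent.P257.V4.O

open Vale.Agent.P251.T Vale.Agent.P251.S Vale.Agent.P257.V4.A

theorem two_sum_le {p : ℕ} (hp : 11 ≤ p) {n : ℕ} (hn : n ≤ 4) :
    2 * ∑ i ∈ Finset.range n, Ch.N p i ≤ Ch.N p n := by
  obtain ⟨c, rfl⟩ : ∃ c, p = c + 11 := ⟨p - 11, by omega⟩
  interval_cases n <;> simp only [Ch.N, Finset.sum_range_succ, Finset.sum_range_zero, pow_zero,
    pow_one] <;> nlinarith [Nat.zero_le c, Nat.zero_le (c ^ 2), Nat.zero_le (c ^ 3)]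

section

variable {T : Type u} [Category.{v} T] [Preadditive T] [HasZeroObject T] [HasShift T ℤ]
  [∀ n : ℤ, (shiftFunctor T n).Additive] [Pretriangulated T] [MonoidalCategory T]
  [SymmetricCategory T] [TensorTriangulated T] {B : T} [MonObj B] {U : UnitCof B} {X : T}
  {p : ℕ} [Fact p.Prime]

/-- The comparison of the tower of `X` with the cobar complex `Ch p`, for an object `X` with
`B_* X = B_* / (v_0, …, v_{n-1})`. -/
structure Cmp (U : UnitCof B) (p : ℕ) [Fact p.Prime] (n : ℕ) (X : T) : Prop where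
  spa : ∀ (s : ℕ) (m : ℤ), ¬ ((2 * p - 2 : ℕ) : ℤ) ∣ m + ((s + 1 : ℕ) : ℤ) →
    (cpl U X).Van s m
  van : ∀ s D : ℕ, D < Ch.N p n + (s + 1) → Ch.Van p (s + 1) D →
    (cpl U X).Van s (((2 * p - 2 : ℕ) : ℤ) * D - ((s + 1 : ℕ) : ℤ))

/-- The groups for the lift of `v_n`. -/
theorem Cmp.vanL (hp : 11 ≤ p) {n : ℕ} (hC : Cmp U p n X) (hV : OutV p) (h1 : 1 ≤ n) (h3 : n ≤ 3)
    {m : ℤ} (hm : m = ((2 * p - 2 : ℕ) : ℤ) * Ch.N p n - 1) (s : ℕ) (hs : 1 ≤ s) :
    (cpl U X).Van s m := by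
  by_cases h : ((2 * p - 2 : ℕ) : ℤ) ∣ m + ((s + 1 : ℕ) : ℤ)
  · have h2 : (2 * p - 2) ∣ s := by
      have h3 := dvd_sub h (Dvd.intro (Ch.N p n : ℤ) rfl)
      have e : m + ((s + 1 : ℕ) : ℤ) - ((2 * p - 2 : ℕ) : ℤ) * Ch.N p n = (s : ℤ) := by
        rw [hm]; push_cast; ring
      rw [e] at h3
      exact_mod_cast h3
    obtain ⟨l, rfl⟩ := h2
    have hl : 1 ≤ l := by
      rcases Nat.eq_zero_or_pos l with rfl | hl
      · simp at hs
      · exact hl
    have e : m = ((2 * p - 2 : ℕ) : ℤ) * ((Ch.N p n + l : ℕ) : ℤ) -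
        (((2 * p - 2) * l + 1 : ℕ) : ℤ) := by
      rw [hm]; push_cast; ring
    rw [e]
    refine hC.van _ _ ?_ (hV n h1 h3 l hl)
    have : l ≤ (2 * p - 2) * l := Nat.le_mul_of_pos_left l (by omega)
    omega
  · exact hC.spa s m h

/-- The groups for the pairing. -/
theorem Cmp.vanP (hp : 11 ≤ p) {n : ℕ} (hC : Cmp U p n X) (hM : OutMu p) (hn : n ≤ 4)
    {d : ℕ → ℤ} (hd : ∀ k, d k = ((2 * p - 2 : ℕ) : ℤ) * Ch.N p k) {k : ℕ} (hk : k < n) {a b : ℤ}
    (ha : a ∈ St d k) (hb : b ∈ St d n) : Good U X (d k + a + b) := by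
  obtain ⟨S, hS, rfl⟩ := St_finset ha
  obtain ⟨T', hT, rfl⟩ := St_finset hb
  have hsum : ∀ S : Finset ℕ, ∑ i ∈ S, (d i + 1) =
      ((2 * p - 2 : ℕ) : ℤ) * ((∑ i ∈ S, Ch.N p i : ℕ) : ℤ) + (S.card : ℤ) := by
    intro S
    rw [Finset.sum_add_distrib, Finset.sum_congr rfl fun i _ => hd i, ← Finset.mul_sum]
    simp
  intro s
  rw [hsum, hsum, hd k]
  have hkS : k ∉ S := fun h => by simpa using hS h
  by_cases h : ((2 * p - 2 : ℕ) : ℤ) ∣ ((2 * p - 2 : ℕ) : ℤ) * Ch.N p k +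
      (((2 * p - 2 : ℕ) : ℤ) * ((∑ i ∈ S, Ch.N p i : ℕ) : ℤ) + (S.card : ℤ)) +
      (((2 * p - 2 : ℕ) : ℤ) * ((∑ i ∈ T', Ch.N p i : ℕ) : ℤ) + (T'.card : ℤ)) +
        ((s + 1 : ℕ) : ℤ)
  · have h2 : (2 * p - 2) ∣ S.card + T'.card + (s + 1) := by
      have h3 := dvd_sub h (Dvd.intro
        ((Ch.N p k + ∑ i ∈ S, Ch.N p i + ∑ i ∈ T', Ch.N p i : ℕ) : ℤ) rfl)
      have e : ((2 * p - 2 : ℕ) : ℤ) * Ch.N p k +
          (((2 * p - 2 : ℕ) : ℤ) * ((∑ i ∈ S, Ch.N p i : ℕ) : ℤ) + (S.card : ℤ)) +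
          (((2 * p - 2 : ℕ) : ℤ) * ((∑ i ∈ T', Ch.N p i : ℕ) : ℤ) + (T'.card : ℤ)) +
          ((s + 1 : ℕ) : ℤ) - ((2 * p - 2 : ℕ) : ℤ) *
            ((Ch.N p k + ∑ i ∈ S, Ch.N p i + ∑ i ∈ T', Ch.N p i : ℕ) : ℤ) =
          ((S.card + T'.card + (s + 1) : ℕ) : ℤ) := by
        push_cast; ring
      rw [e] at h3
      exact_mod_cast h3
    obtain ⟨l, hl⟩ := h2
    have hl1 : 1 ≤ l := by
      rcases Nat.eq_zero_or_pos l with rfl | hl'
      · simp at hl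
      · exact hl'
    have hcS : (insert k S).card = S.card + 1 := Finset.card_insert_of_notMem hkS
    have hsS : ∑ i ∈ insert k S, Ch.N p i = Ch.N p k + ∑ i ∈ S, Ch.N p i :=
      Finset.sum_insert hkS
    have hsub : insert k S ⊆ Finset.range n := by
      intro i hi
      rcases Finset.mem_insert.1 hi with rfl | hi
      · exact Finset.mem_range.2 hk
      · exact Finset.range_mono hk.le (hS hi)
    have h4 : Finset.range n ⊆ Finset.range 4 := Finset.range_mono hn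
    have hvan := hM (insert k S) T' (hsub.trans h4) (hT.trans h4) (Finset.insert_nonempty _ _) l
      (s + 1) (by omega) (by rw [hcS, ← hl]; ring)
    have e : ((2 * p - 2 : ℕ) : ℤ) * Ch.N p k +
          (((2 * p - 2 : ℕ) : ℤ) * ((∑ i ∈ S, Ch.N p i : ℕ) : ℤ) + (S.card : ℤ)) +
          (((2 * p - 2 : ℕ) : ℤ) * ((∑ i ∈ T', Ch.N p i : ℕ) : ℤ) + (T'.card : ℤ)) =
        ((2 * p - 2 : ℕ) : ℤ) *
          ((∑ i ∈ insert k S, Ch.N p i + ∑ i ∈ T', Ch.N p i + l : ℕ) : ℤ) -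
            ((s + 1 : ℕ) : ℤ) := by
      have hl' : (S.card : ℤ) + T'.card + ((s + 1 : ℕ) : ℤ) = ((2 * p - 2 : ℕ) : ℤ) * l := by
        exact_mod_cast hl
      rw [hsS]
      push_cast at hl' ⊢
      linear_combination hl'
    rw [e]
    refine hC.van _ _ ?_ hvan
    have b1 : ∑ i ∈ insert k S, Ch.N p i ≤ ∑ i ∈ Finset.range n, Ch.N p i :=
      Finset.sum_le_sum_of_subset hsub
    have b2 : ∑ i ∈ T', Ch.N p i ≤ ∑ i ∈ Finset.range n, Ch.N p i :=
      Finset.sum_le_sum_of_subset hT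
    have b3 := two_sum_le hp hn
    have b4 : (insert k S).card ≤ n := by
      simpa using Finset.card_le_card hsub
    have b5 : T'.card ≤ n := by simpa using Finset.card_le_card hT
    have b6 : 20 * l ≤ (2 * p - 2) * l := Nat.mul_le_mul_right l (by omega)
    omega
  · exact hC.spa s _ h

end

end Vale.Agent.P257.V4.O
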